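import Mathlib

namespace Vale.Agent.Lib.P139

/-- The Japanese bracket `⟨n⟩ = (1 + |n|²)^(1/2)` of a frequency `n ∈ ℤ^d`. -/
noncomputable def bracket {d : ℕ} (n : Fin d → ℤ) : ℝ :=
  Real.sqrt (1 + ∑ i, ((n i : ℤ) : ℝ) ^ 2)

end Vale.Agent.Lib.P139
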