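import Mathlib

namespace Vale.Agent.Lib.P139

open scoped BigOperators

/-- `Σ_{m ∈ ℤ} (1 + m²)^(-γ)` converges for `γ > 1/2`. -/
theorem summable_int_one_add_sq (γ : ℝ) (hγ : 1 / 2 < γ) :
    Summable (fun m : ℤ => (1 + (m : ℝ) ^ 2) ^ (-γ)) := by
  have h1 : Summable (fun m : ℤ => |(m : ℝ)| ^ (-(2 * γ))) :=
    Real.summable_abs_int_rpow (by linarith)
  have h2 : Summable (fun m : ℤ => if m = 0 then (1 : ℝ) else 0) :=
    summable_of_ne_finset_zero (s := {0}) (fun b hb => by simp at hb; simp [hb])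
  refine Summable.of_nonneg_of_le (fun m => by positivity) (fun m => ?_) (h1.add h2)
  by_cases hm : m = 0
  · subst hm
    simp
    positivity
  · simp only [hm, if_false, add_zero]
    have hm' : (0 : ℝ) < |(m : ℝ)| := abs_pos.2 (by exact_mod_cast hm)
    have h3 : |(m : ℝ)| ^ (-(2 * γ)) = ((m : ℝ) ^ 2) ^ (-γ) := by
      rw [← sq_abs, ← Real.rpow_natCast, ← Real.rpow_mul hm'.le]
      congr 1; push_cast; ring
    rw [h3]
    refine Real.rpow_le_rpow_of_nonpos (by positivity) (by linarith) (by linarith)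

/-- products of a nonnegative summable function are summable over `Fin d → ι` -/
theorem summable_pi_prod {ι : Type*} (f : ι → ℝ) (hf : Summable f) (hf0 : ∀ x, 0 ≤ f x) (d : ℕ) :
    Summable (fun n : Fin d → ι => ∏ i, f (n i)) := by
  induction d with
  | zero =>
    haveI : Finite (Fin 0 → ι) := inferInstance
    exact Summable.of_finite
  | succ d ih =>
    have h1 : Summable (fun x : (Fin d → ι) × ι => (∏ i, f (x.1 i)) * f x.2) :=
      ih.mul_of_nonneg hf (fun n => Finset.prod_nonneg (fun i _ => hf0 _)) hf0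
    have h2 := (Fin.succFunEquiv ι d).summable_iff.2 h1
    refine h2.congr (fun n => ?_)
    simp only [Function.comp_apply, Fin.succFunEquiv_apply]
    rw [Fin.prod_univ_castSucc]
    rfl

/-- `Σ_{n ∈ ℤ^d} (1 + |n|²)^(-β)` converges for `β > d/2`. -/
theorem summable_japanese (d : ℕ) (β : ℝ) (hβ : (d : ℝ) / 2 < β) :
    Summable (fun n : Fin d → ℤ => (1 + ∑ i, ((n i : ℤ) : ℝ) ^ 2) ^ (-β)) := by
  rcases Nat.eq_zero_or_pos d with hd | hd
  · subst hd
    haveI : Finite (Fin 0 → ℤ) := inferInstance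
    exact Summable.of_finite
  have hd' : (0 : ℝ) < d := by exact_mod_cast hd
  have hβ0 : 0 < β := by
    have : (0 : ℝ) ≤ (d : ℝ) / 2 := by positivity
    linarith
  set γ : ℝ := β / d with hγ_def
  have hγ : 1 / 2 < γ := by
    rw [hγ_def, lt_div_iff₀ hd']; linarith
  have hsum := summable_pi_prod (fun m : ℤ => (1 + (m : ℝ) ^ 2) ^ (-γ))
    (summable_int_one_add_sq γ hγ) (fun m => by positivity) d
  refine Summable.of_nonneg_of_le (fun n => by positivity) (fun n => ?_) hsum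
  have hpos : (0 : ℝ) < 1 + ∑ i, ((n i : ℤ) : ℝ) ^ 2 := by positivity
  have h1 : (1 + ∑ i, ((n i : ℤ) : ℝ) ^ 2) ^ (-β) =
      ∏ _i : Fin d, (1 + ∑ i, ((n i : ℤ) : ℝ) ^ 2) ^ (-γ) := by
    rw [Finset.prod_const, Finset.card_univ, Fintype.card_fin, ← Real.rpow_natCast,
      ← Real.rpow_mul hpos.le]
    congr 1
    rw [hγ_def]; field_simp
  rw [h1]
  refine Finset.prod_le_prod (fun i _ => by positivity) (fun i _ => ?_)
  refine Real.rpow_le_rpow_of_nonpos (by positivity) ?_ (by linarith)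
  have : ((n i : ℤ) : ℝ) ^ 2 ≤ ∑ j, ((n j : ℤ) : ℝ) ^ 2 :=
    Finset.single_le_sum (f := fun j => ((n j : ℤ) : ℝ) ^ 2) (fun j _ => sq_nonneg _)
      (Finset.mem_univ i)
  linarith

end Vale.Agent.Lib.P139
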