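import Mathlib

namespace Vale.Agent.Lib.P139

open MeasureTheory ProbabilityTheory Filter Topology
open scoped ENNReal

section general

variable {κ Ω : Type*} [Countable κ] {mΩ : MeasurableSpace Ω}

/-- elementary inequality -/
theorem sq_sub_le (a b : ℝ) : (a - b) ^ 2 ≤ 2 * a ^ 2 + 2 * b ^ 2 := by
  nlinarith [sq_nonneg (a + b)]

theorem ofReal_le_two_mul_add (a b c : ℝ) (hb : 0 ≤ b) (hc : 0 ≤ c) (h : a ≤ 2 * b + 2 * c) :
    ENNReal.ofReal a ≤ 2 * ENNReal.ofReal b + 2 * ENNReal.ofReal c := by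
  have h1 := ENNReal.ofReal_le_ofReal h
  rw [ENNReal.ofReal_add (by positivity) (by positivity),
    ENNReal.ofReal_mul (by norm_num : (0 : ℝ) ≤ 2) (q := b),
    ENNReal.ofReal_mul (by norm_num : (0 : ℝ) ≤ 2) (q := c)] at h1
  simpa using h1

/-- The sigma-algebra generated by the variables with index in `S`. -/
@[instance_reducible] def sigmaOn (ξ : κ → Ω → ℝ) (S : Set κ) : MeasurableSpace Ω :=
  ⨆ i ∈ S, MeasurableSpace.comap (ξ i) inferInstance

theorem sigmaOn_le (ξ : κ → Ω → ℝ) (hm : ∀ i, Measurable (ξ i)) (S : Set κ) :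
    sigmaOn ξ S ≤ mΩ :=
  iSup₂_le fun i _ => (hm i).comap_le

theorem comap_le_sigmaOn (ξ : κ → Ω → ℝ) (S : Set κ) {i : κ} (hi : i ∈ S) :
    MeasurableSpace.comap (ξ i) inferInstance ≤ sigmaOn ξ S :=
  le_biSup (fun i => MeasurableSpace.comap (ξ i) inferInstance) hi

/-- Support lemma for a weighted sequence of independent real random variables with full
support and second moment at most one. -/
theorem pos_measure_weighted_ball (P : Measure Ω) [IsProbabilityMeasure P]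
    (ξ : κ → Ω → ℝ) (hm : ∀ i, Measurable (ξ i)) (hind : iIndepFun ξ P)
    (hmom : ∀ i, ∫⁻ ω, ENNReal.ofReal ((ξ i ω) ^ 2) ∂P ≤ 1)
    (hsupp : ∀ i (x δ : ℝ), 0 < δ → 0 < P {ω | |ξ i ω - x| < δ})
    (p q : κ → ℝ) (hp : ∀ i, 0 < p i) (hps : Summable (fun i => p i ^ 2))
    (hqs : Summable (fun i => q i ^ 2)) (ε : ℝ) (hε : 0 < ε) :
    0 < P {ω | Summable (fun i => (p i * ξ i ω - q i) ^ 2) ∧
      ∑' i, (p i * ξ i ω - q i) ^ 2 < ε ^ 2} := by
  classical
  obtain ⟨η, hη_def⟩ : ∃ η : ℝ, η = ε ^ 2 / 16 := ⟨_, rfl⟩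
  have hη : 0 < η := by rw [hη_def]; positivity
  -- choose the finite set F
  have hp_top : ∑' i, ENNReal.ofReal (p i ^ 2) ≠ ∞ := by
    rw [← ENNReal.ofReal_tsum_of_nonneg (fun i => sq_nonneg _) hps]
    exact ENNReal.ofReal_ne_top
  have hq_top : ∑' i, ENNReal.ofReal (q i ^ 2) ≠ ∞ := by
    rw [← ENNReal.ofReal_tsum_of_nonneg (fun i => sq_nonneg _) hqs]
    exact ENNReal.ofReal_ne_top
  have hηE : (0 : ℝ≥0∞) < ENNReal.ofReal η := ENNReal.ofReal_pos.2 hη
  have e1 := (ENNReal.tendsto_tsum_compl_atTop_zero hp_top).eventually (gt_mem_nhds hηE)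
  have e2 := (ENNReal.tendsto_tsum_compl_atTop_zero hq_top).eventually (gt_mem_nhds hηE)
  obtain ⟨F, hFp, hFq⟩ := (e1.and e2).exists
  -- the tail variable
  set Y : Ω → ℝ≥0∞ := fun ω => ∑' i : {x // x ∉ F}, ENNReal.ofReal (p i ^ 2 * (ξ i ω) ^ 2)
    with hY_def
  have hterm_meas : ∀ i : κ, Measurable[MeasurableSpace.comap (ξ i) inferInstance]
      (fun ω => ENNReal.ofReal (p i ^ 2 * (ξ i ω) ^ 2)) := by
    intro i
    have h1 : Measurable[MeasurableSpace.comap (ξ i) inferInstance] (ξ i) :=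
      comap_measurable (ξ i)
    exact ENNReal.measurable_ofReal.comp ((h1.pow_const 2).const_mul _)
  have hY_measT : Measurable[sigmaOn ξ ((↑F : Set κ)ᶜ)] Y := by
    refine @Measurable.ennreal_tsum Ω (sigmaOn ξ ((↑F : Set κ)ᶜ)) {x // x ∉ F} _ _ (fun i => ?_)
    have hi : (i : κ) ∈ ((↑F : Set κ)ᶜ) := i.2
    exact (hterm_meas i).mono (comap_le_sigmaOn ξ _ hi) le_rfl
  have hY_meas : Measurable Y := hY_measT.mono (sigmaOn_le ξ hm _) le_rfl
  -- expectation of Y
  have hEY : ∫⁻ ω, Y ω ∂P < ENNReal.ofReal η := by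
    have h1 : ∫⁻ ω, Y ω ∂P =
        ∑' i : {x // x ∉ F}, ∫⁻ ω, ENNReal.ofReal (p i ^ 2 * (ξ i ω) ^ 2) ∂P := by
      rw [hY_def]
      refine lintegral_tsum (fun i => ?_)
      exact (((hterm_meas i).mono (hm i).comap_le le_rfl)).aemeasurable
    rw [h1]
    refine lt_of_le_of_lt (ENNReal.tsum_le_tsum (fun i => ?_)) hFp
    have h2 : ∀ ω, ENNReal.ofReal (p i ^ 2 * (ξ i ω) ^ 2) =
        ENNReal.ofReal (p i ^ 2) * ENNReal.ofReal ((ξ i ω) ^ 2) := fun ω =>
      ENNReal.ofReal_mul (sq_nonneg _)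
    simp_rw [h2]
    rw [lintegral_const_mul (ENNReal.ofReal (p i ^ 2))
      (f := fun ω => ENNReal.ofReal ((ξ i ω) ^ 2))
      (ENNReal.measurable_ofReal.comp ((hm i).pow_const 2))]
    calc ENNReal.ofReal (p i ^ 2) * ∫⁻ ω, ENNReal.ofReal ((ξ i ω) ^ 2) ∂P
        ≤ ENNReal.ofReal (p i ^ 2) * 1 := by gcongr; exact hmom i
      _ = ENNReal.ofReal (p i ^ 2) := mul_one _
  -- the tail event
  set B : Set Ω := {ω | Y ω < ENNReal.ofReal (2 * η)} with hB_def
  have hB_measT : MeasurableSet[sigmaOn ξ ((↑F : Set κ)ᶜ)] B :=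
    hY_measT measurableSet_Iio
  have hBm : MeasurableSet B := sigmaOn_le ξ hm _ _ hB_measT
  have hB_pos : 0 < P B := by
    by_contra hB0
    have hB0' : P B = 0 := nonpos_iff_eq_zero.1 (not_lt.1 hB0)
    have hBc : P Bᶜ = 1 := by
      rw [prob_compl_eq_one_sub hBm, hB0']; simp
    have hmark := mul_meas_ge_le_lintegral hY_meas (μ := P) (ENNReal.ofReal (2 * η))
    have hset : {ω | ENNReal.ofReal (2 * η) ≤ Y ω} = Bᶜ := by
      ext ω; simp [hB_def]
    rw [hset, hBc, mul_one] at hmark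
    have : ENNReal.ofReal (2 * η) < ENNReal.ofReal η := lt_of_le_of_lt hmark hEY
    rw [ENNReal.ofReal_lt_ofReal_iff hη] at this
    linarith
  -- the low modes event
  obtain ⟨δ, hδ_def⟩ : ∃ δ : ℝ, δ = ε / (2 * ((F.card : ℝ) + 1)) := ⟨_, rfl⟩
  have hcard : (0 : ℝ) < (F.card : ℝ) + 1 := by positivity
  have hδ : 0 < δ := by rw [hδ_def]; positivity
  set Ai : κ → Set Ω := fun i => {ω | |ξ i ω - q i / p i| < δ / p i} with hAi_def
  set A : Set Ω := ⋂ i ∈ F, Ai i with hA_def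
  have hAi_meas : ∀ i, MeasurableSet[MeasurableSpace.comap (ξ i) inferInstance] (Ai i) := by
    intro i
    refine ⟨{x | |x - q i / p i| < δ / p i}, ?_, rfl⟩
    exact measurableSet_lt (by fun_prop) measurable_const
  have hA_measF : MeasurableSet[sigmaOn ξ (↑F : Set κ)] A := by
    refine @MeasurableSet.biInter Ω κ (sigmaOn ξ (↑F : Set κ)) (Ai) (↑F : Set κ)
      (Finset.countable_toSet F) (fun i hi => ?_)
    exact (comap_le_sigmaOn ξ _ hi) _ (hAi_meas i)
  have hA_pos : 0 < P A := by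
    rw [hA_def, hind.meas_biInter (fun i _ => hAi_meas i), pos_iff_ne_zero,
      Finset.prod_ne_zero_iff]
    intro i _
    exact (hsupp i (q i / p i) (δ / p i) (div_pos hδ (hp i))).ne'
  -- independence
  have hindep : Indep (sigmaOn ξ (↑F : Set κ)) (sigmaOn ξ ((↑F : Set κ)ᶜ)) P :=
    indep_iSup_of_disjoint (fun i => (hm i).comap_le) hind disjoint_compl_right
  have hAB : P (A ∩ B) = P A * P B := (Indep_iff _ _ _).1 hindep A B hA_measF hB_measT
  have hAB_pos : 0 < P (A ∩ B) := by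
    rw [hAB]; exact ENNReal.mul_pos hA_pos.ne' hB_pos.ne'
  refine lt_of_lt_of_le hAB_pos (measure_mono ?_)
  rintro ω ⟨hωA, hωB⟩
  -- ENNReal version of the sum
  have hT_le : ∀ i, (p i * ξ i ω - q i) ^ 2 ≤ 2 * (p i ^ 2 * (ξ i ω) ^ 2) + 2 * q i ^ 2 := by
    intro i
    have := sq_sub_le (p i * ξ i ω) (q i)
    rw [mul_pow] at this
    exact this
  have hlow : ∀ i ∈ F, (p i * ξ i ω - q i) ^ 2 ≤ δ ^ 2 := by
    intro i hi
    have h1 : |ξ i ω - q i / p i| < δ / p i := by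
      have := Set.mem_iInter₂.1 hωA i hi
      exact this
    have h2 : |p i * ξ i ω - q i| < δ := by
      have hpi := hp i
      have : p i * ξ i ω - q i = p i * (ξ i ω - q i / p i) := by
        field_simp
      rw [this, abs_mul, abs_of_pos hpi]
      calc p i * |ξ i ω - q i / p i| < p i * (δ / p i) := by gcongr
        _ = δ := by field_simp
    have h3 : |p i * ξ i ω - q i| ^ 2 ≤ δ ^ 2 := by
      gcongr
    rwa [sq_abs] at h3
  have hsumE : ∑' i, ENNReal.ofReal ((p i * ξ i ω - q i) ^ 2) < ENNReal.ofReal (ε ^ 2) := by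
    rw [← ENNReal.sum_add_tsum_compl F]
    have hA1 : ∑ i ∈ F, ENNReal.ofReal ((p i * ξ i ω - q i) ^ 2) ≤
        ENNReal.ofReal ((F.card : ℝ) * δ ^ 2) := by
      calc ∑ i ∈ F, ENNReal.ofReal ((p i * ξ i ω - q i) ^ 2)
          ≤ ∑ i ∈ F, ENNReal.ofReal (δ ^ 2) :=
            Finset.sum_le_sum (fun i hi => ENNReal.ofReal_le_ofReal (hlow i hi))
        _ = ENNReal.ofReal ((F.card : ℝ) * δ ^ 2) := by
            rw [Finset.sum_const, nsmul_eq_mul, ENNReal.ofReal_mul (Nat.cast_nonneg _)]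
            simp
    have hA2 : ∑' i : {x // x ∉ F}, ENNReal.ofReal ((p i * ξ i ω - q i) ^ 2) <
        ENNReal.ofReal (6 * η) := by
      calc ∑' i : {x // x ∉ F}, ENNReal.ofReal ((p i * ξ i ω - q i) ^ 2)
          ≤ ∑' i : {x // x ∉ F}, (2 * ENNReal.ofReal (p i ^ 2 * (ξ i ω) ^ 2) +
              2 * ENNReal.ofReal (q i ^ 2)) := by
            refine ENNReal.tsum_le_tsum (fun i => ?_)
            exact ofReal_le_two_mul_add _ _ _ (by positivity) (by positivity) (hT_le i)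
        _ = 2 * Y ω + 2 * ∑' i : {x // x ∉ F}, ENNReal.ofReal (q i ^ 2) := by
            rw [ENNReal.tsum_add, ENNReal.tsum_mul_left, ENNReal.tsum_mul_left]
        _ < 2 * ENNReal.ofReal (2 * η) + 2 * ENNReal.ofReal η := by
            have h1 : 2 * Y ω < 2 * ENNReal.ofReal (2 * η) :=
              (ENNReal.mul_lt_mul_iff_right (by norm_num) (by norm_num)).2 hωB
            have h2 : 2 * ∑' i : {x // x ∉ F}, ENNReal.ofReal (q i ^ 2) < 2 * ENNReal.ofReal η :=
              (ENNReal.mul_lt_mul_iff_right (by norm_num) (by norm_num)).2 hFq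
            exact ENNReal.add_lt_add h1 h2
        _ = ENNReal.ofReal (6 * η) := by
            rw [show (2 : ℝ≥0∞) = ENNReal.ofReal 2 by simp, ← ENNReal.ofReal_mul (by norm_num),
              ← ENNReal.ofReal_mul (by norm_num), ← ENNReal.ofReal_add (by positivity) (by positivity)]
            congr 1; ring
    calc ∑ i ∈ F, ENNReal.ofReal ((p i * ξ i ω - q i) ^ 2) +
          ∑' i : {x // x ∉ F}, ENNReal.ofReal ((p i * ξ i ω - q i) ^ 2)
        < ENNReal.ofReal ((F.card : ℝ) * δ ^ 2) + ENNReal.ofReal (6 * η) :=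
          ENNReal.add_lt_add_of_le_of_lt (ne_top_of_le_ne_top ENNReal.ofReal_ne_top hA1) hA1 hA2
      _ = ENNReal.ofReal ((F.card : ℝ) * δ ^ 2 + 6 * η) :=
          (ENNReal.ofReal_add (by positivity) (by positivity)).symm
      _ ≤ ENNReal.ofReal (ε ^ 2) := by
          refine ENNReal.ofReal_le_ofReal ?_
          have hc : (0 : ℝ) ≤ (F.card : ℝ) := Nat.cast_nonneg _
          have hδ1 : δ * (2 * ((F.card : ℝ) + 1)) = ε := by
            rw [hδ_def]; exact div_mul_cancel₀ _ (by positivity)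
          have hδ2 : δ ^ 2 * (4 * ((F.card : ℝ) + 1) ^ 2) = ε ^ 2 := by
            rw [← hδ1]; ring
          have h0 : (F.card : ℝ) ≤ ((F.card : ℝ) + 1) ^ 2 := by nlinarith
          have h1 : (F.card : ℝ) * δ ^ 2 ≤ ε ^ 2 / 4 := by
            have hd : 0 ≤ δ ^ 2 := sq_nonneg δ
            have : (F.card : ℝ) * δ ^ 2 ≤ ((F.card : ℝ) + 1) ^ 2 * δ ^ 2 :=
              mul_le_mul_of_nonneg_right h0 hd
            linarith
          rw [hη_def]
          linarith [sq_nonneg ε]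
  have hsummable : Summable (fun i => (p i * ξ i ω - q i) ^ 2) := by
    have hne : ∑' i, ENNReal.ofReal ((p i * ξ i ω - q i) ^ 2) ≠ ∞ := hsumE.ne_top
    have := ENNReal.summable_toReal hne
    refine this.congr (fun i => ?_)
    rw [ENNReal.toReal_ofReal (sq_nonneg _)]
  refine ⟨hsummable, ?_⟩
  rw [← ENNReal.ofReal_tsum_of_nonneg (fun i => sq_nonneg _) hsummable] at hsumE
  exact (ENNReal.ofReal_lt_ofReal_iff (by positivity)).1 hsumE

end general

end Vale.Agent.Lib.P139
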