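import Vale.Agent.Lib.P139.Defs
import Vale.Agent.Lib.P139.Support
import Vale.Agent.Lib.P139.Summable

namespace Vale.Agent.Lib.P139

open MeasureTheory ProbabilityTheory Filter Topology
open scoped ENNReal NNReal

theorem bracket_pos {d : ℕ} (n : Fin d → ℤ) : 0 < bracket n := by
  unfold bracket; positivity

theorem bracket_rpow_sq {d : ℕ} (n : Fin d → ℤ) (t : ℝ) :
    (bracket n ^ t) ^ 2 = (1 + ∑ i, ((n i : ℤ) : ℝ) ^ 2) ^ t := by
  have hpos : (0 : ℝ) ≤ 1 + ∑ i, ((n i : ℤ) : ℝ) ^ 2 := by positivity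
  unfold bracket
  rw [Real.sqrt_eq_rpow, ← Real.rpow_natCast, ← Real.rpow_mul (Real.rpow_nonneg hpos _),
    ← Real.rpow_mul hpos]
  congr 1; push_cast; ring

section gauss

variable {Ω : Type*} {mΩ : MeasurableSpace Ω} {P : Measure Ω}

theorem gaussian_support (X : Ω → ℝ) (hXm : Measurable X)
    (hX : P.map X = gaussianReal 0 (1 / 2)) (x δ : ℝ) (hδ : 0 < δ) :
    0 < P {ω | |X ω - x| < δ} := by
  have hmeas : MeasurableSet {y : ℝ | |y - x| < δ} :=
    measurableSet_lt (by fun_prop) measurable_const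
  have h1 : P {ω | |X ω - x| < δ} = gaussianReal 0 (1 / 2) {y : ℝ | |y - x| < δ} := by
    rw [← hX, Measure.map_apply hXm hmeas]; rfl
  rw [h1, pos_iff_ne_zero]
  intro h0
  have hac := gaussianReal_absolutelyContinuous' (0 : ℝ) (v := (1 / 2 : ℝ≥0)) (by norm_num)
  have h2 : volume {y : ℝ | |y - x| < δ} = 0 := hac h0
  have h3 : {y : ℝ | |y - x| < δ} = Set.Ioo (x - δ) (x + δ) := by
    ext y; simp [abs_lt]; constructor <;> rintro ⟨h, h'⟩ <;> constructor <;> linarith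
  rw [h3, Real.volume_Ioo] at h2
  have : (0 : ℝ) < x + δ - (x - δ) := by linarith
  exact absurd h2 (ENNReal.ofReal_pos.2 this).ne'

theorem gaussian_moment (X : Ω → ℝ) (hXm : Measurable X)
    (hX : P.map X = gaussianReal 0 (1 / 2)) :
    ∫⁻ ω, ENNReal.ofReal ((X ω) ^ 2) ∂P ≤ 1 := by
  have h1 : ∫⁻ ω, ENNReal.ofReal ((X ω) ^ 2) ∂P =
      ∫⁻ y, ENNReal.ofReal (y ^ 2) ∂(gaussianReal 0 (1 / 2)) := by
    rw [← hX, lintegral_map (by fun_prop) hXm]
  rw [h1]
  have h2 := evariance_eq_lintegral_ofReal (fun y : ℝ => y) (gaussianReal 0 (1 / 2))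
  have h3 : ∫ y, y ∂(gaussianReal 0 (1 / 2)) = 0 := integral_id_gaussianReal
  simp only [h3, sub_zero] at h2
  rw [← h2]
  have h4 : MemLp (fun y : ℝ => y) 2 (gaussianReal 0 (1 / 2)) := memLp_id_gaussianReal 2
  rw [← h4.ofReal_variance_eq, variance_fun_id_gaussianReal]
  simp

end gauss

section main

variable {Ω : Type*} {mΩ : MeasurableSpace Ω}

/-- The law of the Gaussian random Fourier series charges every ball of `H^s`. -/
theorem gaussian_series_full_support (d : ℕ) (s α : ℝ) (hα : s + (d : ℝ) / 2 < α)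
    (P : Measure Ω) [IsProbabilityMeasure P]
    (X Y : (Fin d → ℤ) → Ω → ℝ)
    (hXm : ∀ n, Measurable (X n)) (hYm : ∀ n, Measurable (Y n))
    (hX : ∀ n, P.map (X n) = gaussianReal 0 (1 / 2))
    (hY : ∀ n, P.map (Y n) = gaussianReal 0 (1 / 2))
    (hind : iIndepFun (Sum.elim X Y) P)
    (v : (Fin d → ℤ) → ℂ) (hv : Summable (fun n => bracket n ^ (2 * s) * ‖v n‖ ^ 2))
    (ε : ℝ) (hε : 0 < ε) :
    0 < P {ω | Summable (fun n => bracket n ^ (2 * s) *
          ‖((X n ω : ℂ) + (Y n ω : ℂ) * Complex.I) * ((bracket n ^ (-α) : ℝ) : ℂ) - v n‖ ^ 2) ∧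
      ∑' n, bracket n ^ (2 * s) *
          ‖((X n ω : ℂ) + (Y n ω : ℂ) * Complex.I) * ((bracket n ^ (-α) : ℝ) : ℂ) - v n‖ ^ 2
        < ε ^ 2} := by
  set ξ : ((Fin d → ℤ) ⊕ (Fin d → ℤ)) → Ω → ℝ := Sum.elim X Y with hξ
  set p : ((Fin d → ℤ) ⊕ (Fin d → ℤ)) → ℝ :=
    Sum.elim (fun n => bracket n ^ (s - α)) (fun n => bracket n ^ (s - α)) with hp_def
  set q : ((Fin d → ℤ) ⊕ (Fin d → ℤ)) → ℝ :=
    Sum.elim (fun n => bracket n ^ s * (v n).re) (fun n => bracket n ^ s * (v n).im) with hq_def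
  have hξm : ∀ j, Measurable (ξ j) := by
    rintro (n | n)
    · exact hXm n
    · exact hYm n
  have hmom : ∀ j, ∫⁻ ω, ENNReal.ofReal ((ξ j ω) ^ 2) ∂P ≤ 1 := by
    rintro (n | n)
    · exact gaussian_moment (X n) (hXm n) (hX n)
    · exact gaussian_moment (Y n) (hYm n) (hY n)
  have hsupp : ∀ j (x δ : ℝ), 0 < δ → 0 < P {ω | |ξ j ω - x| < δ} := by
    rintro (n | n) x δ hδ
    · exact gaussian_support (X n) (hXm n) (hX n) x δ hδ
    · exact gaussian_support (Y n) (hYm n) (hY n) x δ hδ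
  have hp : ∀ j, 0 < p j := by
    rintro (n | n) <;> exact Real.rpow_pos_of_pos (bracket_pos n) _
  have hjap : Summable (fun n : Fin d → ℤ => (bracket n ^ (s - α)) ^ 2) := by
    have := summable_japanese d (α - s) (by linarith)
    refine this.congr (fun n => ?_)
    rw [bracket_rpow_sq]; congr 1; ring
  have hps : Summable (fun j => p j ^ 2) := by
    refine Summable.sum _ ?_ ?_
    · exact hjap
    · exact hjap
  have hsq : ∀ n : Fin d → ℤ, bracket n ^ (2 * s) = (bracket n ^ s) ^ 2 := by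
    intro n
    rw [← Real.rpow_natCast, ← Real.rpow_mul (bracket_pos n).le]
    congr 1; push_cast; ring
  have hqs : Summable (fun j => q j ^ 2) := by
    refine Summable.sum _ ?_ ?_
    · refine Summable.of_nonneg_of_le (fun n => sq_nonneg _) (fun n => ?_) hv
      simp only [Function.comp_apply, hq_def, Sum.elim_inl]
      rw [mul_pow, hsq]
      have h1 : (v n).re ^ 2 ≤ ‖v n‖ ^ 2 := by
        rw [Complex.sq_norm, Complex.normSq_apply]; nlinarith [sq_nonneg (v n).im]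
      exact mul_le_mul_of_nonneg_left h1 (sq_nonneg _)
    · refine Summable.of_nonneg_of_le (fun n => sq_nonneg _) (fun n => ?_) hv
      simp only [Function.comp_apply, hq_def, Sum.elim_inr]
      rw [mul_pow, hsq]
      have h1 : (v n).im ^ 2 ≤ ‖v n‖ ^ 2 := by
        rw [Complex.sq_norm, Complex.normSq_apply]; nlinarith [sq_nonneg (v n).re]
      exact mul_le_mul_of_nonneg_left h1 (sq_nonneg _)
  have key := pos_measure_weighted_ball P ξ hξm hind hmom hsupp p q hp hps hqs ε hε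
  refine lt_of_lt_of_le key (measure_mono ?_)
  rintro ω ⟨hsum, hlt⟩
  -- pointwise identity
  have hpt : ∀ n : Fin d → ℤ, bracket n ^ (2 * s) *
      ‖((X n ω : ℂ) + (Y n ω : ℂ) * Complex.I) * ((bracket n ^ (-α) : ℝ) : ℂ) - v n‖ ^ 2 =
      (p (Sum.inl n) * ξ (Sum.inl n) ω - q (Sum.inl n)) ^ 2 +
        (p (Sum.inr n) * ξ (Sum.inr n) ω - q (Sum.inr n)) ^ 2 := by
    intro n
    simp only [hp_def, hq_def, hξ, Sum.elim_inl, Sum.elim_inr]
    have hb : bracket n ^ (s - α) = bracket n ^ s * bracket n ^ (-α) := by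
      rw [← Real.rpow_add (bracket_pos n)]; congr 1
    rw [hsq, Complex.sq_norm, Complex.normSq_apply, hb]
    simp only [Complex.sub_re, Complex.sub_im, Complex.mul_re, Complex.mul_im, Complex.add_re,
      Complex.add_im, Complex.ofReal_re, Complex.ofReal_im, Complex.I_re, Complex.I_im]
    ring
  have hl : Summable (fun n : Fin d → ℤ => (p (Sum.inl n) * ξ (Sum.inl n) ω - q (Sum.inl n)) ^ 2) :=
    hsum.comp_injective Sum.inl_injective
  have hr : Summable (fun n : Fin d → ℤ => (p (Sum.inr n) * ξ (Sum.inr n) ω - q (Sum.inr n)) ^ 2) :=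
    hsum.comp_injective Sum.inr_injective
  have htot : ∑' j, (p j * ξ j ω - q j) ^ 2 =
      ∑' n : Fin d → ℤ, ((p (Sum.inl n) * ξ (Sum.inl n) ω - q (Sum.inl n)) ^ 2 +
        (p (Sum.inr n) * ξ (Sum.inr n) ω - q (Sum.inr n)) ^ 2) := by
    rw [Summable.tsum_sum (f := fun j => (p j * ξ j ω - q j) ^ 2) hl hr, hl.tsum_add hr]
  refine ⟨(hl.add hr).congr (fun n => (hpt n).symm), ?_⟩
  rw [tsum_congr hpt, ← htot]
  exact hlt

end main

end Vale.Agent.Lib.P139
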